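import Vale.Agent.P153.R2.F2.Stmt640

/-!
# P153-R2, block F2 (helper640): exploration of clusters attached to the outside, for exact data
-/

namespace Vale.Agent.P153.R2.F2

open Set Relation
open Vale.Agent.P153
open Vale.Agent.P153.Topo (Conn)
open Vale.Agent.P153.R2

/-! ### Exact data -/

theorem exa_in {V : Set Pt} {η : Hg} {x : Pt} (h : x ∈ V) : exa V η x = univ := by
  unfold exa; rw [if_pos h]

theorem exa_out {V : Set Pt} {η : Hg} {x : Pt} (h : x ∉ V) : exa V η x = {η x} := by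
  unfold exa; rw [if_neg h]

theorem dat_exa {V : Set Pt} (hV : V.Finite) (η : Hg) : Dat V (exa V η) := by
  refine ⟨hV, fun x hx => ?_, hV.subset fun x hx => ?_⟩
  · rw [exa_out hx]; exact Set.finite_singleton _
  · by_contra h
    apply hx
    rw [exa_out h]
    exact Set.subsingleton_singleton

theorem Cx_finite {V : Set Pt} (hV : V.Finite) (η : Hg) : (Cx V η).Finite :=
  Cfg_finite (dat_exa hV η)

theorem Cx_out {V : Set Pt} {η h : Hg} (hh : h ∈ Cx V η) {x : Pt} (hx : x ∉ V) : h x = η x := by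
  have := hh.2.1 x
  rw [exa_out hx] at this
  exact this

theorem mem_Cx {V : Set Pt} {η h : Hg} : h ∈ Cx V η ↔ (∀ x, Odd (h x)) ∧ (∀ x, x ∉ V → h x = η x) ∧
    ∀ x ∈ V, ∀ y, Adj x y → |h x - h y| ≤ 2 := by
  constructor
  · intro hh
    exact ⟨hh.1, fun x hx => Cx_out hh hx, hh.2.2⟩
  · rintro ⟨h1, h2, h3⟩
    refine ⟨h1, fun x => ?_, h3⟩
    by_cases hx : x ∈ V
    · rw [exa_in hx]; exact mem_univ _
    · rw [exa_out hx]; exact h2 x hx

theorem Cx_self {V : Set Pt} {η h : Hg} (hh : h ∈ Cx V η) : Cx V h = Cx V η := by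
  ext g
  rw [mem_Cx, mem_Cx]
  constructor
  · rintro ⟨h1, h2, h3⟩
    exact ⟨h1, fun x hx => by rw [h2 x hx, Cx_out hh hx], h3⟩
  · rintro ⟨h1, h2, h3⟩
    exact ⟨h1, fun x hx => by rw [h2 x hx, Cx_out hh hx], h3⟩

theorem Cx_agree {V V' : Set Pt} {η h : Hg} (hh : h ∈ Cx V η) (hV : V' ⊆ V) :
    Cx V η ∩ {g | ∀ x, x ∉ V' → g x = h x} = Cx V' h := by
  rw [Cfg_agree hh hV]
  congr 1
  funext x
  by_cases hx : x ∈ V'
  · rw [if_pos hx, exa_in (hV hx), exa_in hx]
  · rw [if_neg hx, exa_out hx]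

theorem self_mem_Cx {V V' : Set Pt} {η h : Hg} (hh : h ∈ Cx V η) (hV : V' ⊆ V) : h ∈ Cx V' h := by
  rw [← Cx_agree hh hV]
  exact ⟨hh, fun _ _ => rfl⟩

/-! ### Negation -/

/-- The mirror image of a set of heights. -/
def ng (h : Hg) : Hg := fun x => - h x

theorem ng_ng (h : Hg) : ng (ng h) = h := by funext x; simp [ng]

theorem ng_mem {V : Set Pt} {η h : Hg} (hh : h ∈ Cx V η) : ng h ∈ Cx V (ng η) := by
  rw [mem_Cx] at hh ⊢
  refine ⟨fun x => (hh.1 x).neg, fun x hx => ?_, fun x hx y hxy => ?_⟩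
  · unfold ng; rw [hh.2.1 x hx]
  · unfold ng
    have := hh.2.2 x hx y hxy
    rw [abs_le] at this ⊢
    omega

theorem ng_bij (V : Set Pt) (η : Hg) : BijOn ng (Cx V η) (Cx V (ng η)) := by
  refine ⟨fun h hh => ng_mem hh, fun a _ b _ hab => ?_, fun h hh => ⟨ng h, ?_, ng_ng h⟩⟩
  · rw [← ng_ng a, hab, ng_ng]
  · have := ng_mem hh
    rwa [ng_ng] at this

theorem Pr_ng {V : Set Pt} (hV : V.Finite) (η : Hg) (A : Set Hg) :
    Pr (Cx V (ng η)) A = Pr (Cx V η) {h | ng h ∈ A} := by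
  rw [Pr_eq_Ex (Cx_finite hV _), Pr_eq_Ex (Cx_finite hV _), Ex_bij ng (ng_bij V η)]
  refine Ex_congr fun h _ => ?_
  unfold ind
  simp only [mem_ofPred_eq]

theorem up_ng (h : Hg) (a : ℤ) : up (ng h) a = dn h (-a) := by
  ext x
  simp only [up, dn, ng, mem_ofPred_eq]
  omega

theorem dn_ng (h : Hg) (a : ℤ) : dn (ng h) a = up h (-a) := by
  ext x
  simp only [up, dn, ng, mem_ofPred_eq]
  omega

/-! ### Exploration -/

section RV

variable {V : Set Pt} {P : ℤ → Prop} {h g : Hg}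

/-- The vertices with heights in `P`. -/
def lv (P : ℤ → Prop) (h : Hg) : Set Pt := {x | P (h x)}

theorem up_eq_lv (h : Hg) (a : ℤ) : up h a = lv (fun n => a ≤ n) h := rfl
theorem dn_eq_lv (h : Hg) (a : ℤ) : dn h a = lv (fun n => n ≤ a) h := rfl

theorem compl_sub_RV (V U : Set Pt) : Vᶜ ⊆ RV V U := fun x hx => ⟨x, hx, Conn.refl (Or.inl hx)⟩

theorem RV_sub (V U : Set Pt) : RV V U ⊆ Vᶜ ∪ U := fun _ ⟨_, _, h⟩ => h.right_mem

theorem RV_step {V U : Set Pt} {x y : Pt} (hx : x ∈ RV V U) (hxy : Adj x y) (hy : y ∈ Vᶜ ∪ U) :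
    y ∈ RV V U := by
  obtain ⟨z, hz, h⟩ := hx
  exact ⟨z, hz, h.tail hxy hy⟩

theorem RV_ind {V U : Set Pt} (Q : Pt → Prop) (h0 : ∀ x, x ∉ V → Q x)
    (hs : ∀ u v, u ∈ RV V U → Q u → Adj u v → v ∈ Vᶜ ∪ U → Q v) {y : Pt} (hy : y ∈ RV V U) :
    Q y := by
  obtain ⟨x, hx, h⟩ := hy
  exact h.ind Q (h0 x hx) fun u v hu huv hv hQ => hs u v ⟨x, hx, hu⟩ hQ huv hv

theorem RV_mono {V V' U U' : Set Pt} (hV : V' ⊆ V) (hU : U ⊆ U') : RV V U ⊆ RV V' U' := by
  intro y hy
  refine RV_ind (fun y => y ∈ RV V' U') (fun x hx => compl_sub_RV _ _ fun h => hx (hV h))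
    (fun u v _ hu huv hv => RV_step hu huv ?_) hy
  rcases hv with h | h
  · exact Or.inl fun h' => h (hV h')
  · exact Or.inr (hU h)

theorem RV_congr (hg : ∀ x ∈ nb (RV V (lv P h)), g x = h x) : RV V (lv P g) = RV V (lv P h) := by
  apply Subset.antisymm
  · intro y hy
    refine RV_ind (fun y => y ∈ RV V (lv P h)) (fun x hx => compl_sub_RV _ _ hx)
      (fun u v _ hu huv hv => ?_) hy
    by_cases hvR : v ∈ RV V (lv P h)
    · exact hvR
    · have hvn : v ∈ nb (RV V (lv P h)) := Or.inr ⟨hvR, u, hu, huv⟩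
      refine RV_step hu huv ?_
      rcases hv with h1 | h1
      · exact Or.inl h1
      · right
        have h2 : P (g v) := h1
        rw [hg v hvn] at h2
        exact h2
  · intro y hy
    refine RV_ind (fun y => y ∈ RV V (lv P g)) (fun x hx => compl_sub_RV _ _ hx)
      (fun u v hu hu' huv hv => ?_) hy
    refine RV_step hu' huv ?_
    rcases hv with h1 | h1
    · exact Or.inl h1
    · right
      have h2 : P (h v) := h1
      have h3 : v ∈ RV V (lv P h) := RV_step hu huv (Or.inr h1)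
      rw [← hg v (Or.inl h3)] at h2
      exact h2

/-- The domain which remains. -/
def rem (V : Set Pt) (P : ℤ → Prop) (h : Hg) : Set Pt := (nb (RV V (lv P h)))ᶜ

theorem rem_sub (V : Set Pt) (P : ℤ → Prop) (h : Hg) : rem V P h ⊆ V := by
  intro x hx
  by_contra hxV
  exact hx (Or.inl (compl_sub_RV _ _ hxV))

theorem rem_finite (hV : V.Finite) : (rem V P h).Finite := hV.subset (rem_sub V P h)

/-- The outer boundary of the remaining domain. -/
theorem ebd_rem {y : Pt} (hy : y ∈ ebd (rem V P h)) : y ∈ V ∧ ¬ P (h y) ∧ y ∉ RV V (lv P h) ∧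
    ∃ r ∈ RV V (lv P h), Adj r y ∧ (P (h r) ∨ r ∈ ebd V) := by
  obtain ⟨hy1, x, hx, hxy⟩ := hy
  have hyn : y ∈ nb (RV V (lv P h)) := by
    by_contra h1
    exact hy1 h1
  have hyR : y ∉ RV V (lv P h) := fun h1 => hx (by
    by_cases hxR : x ∈ RV V (lv P h)
    · exact Or.inl hxR
    · exact Or.inr ⟨hxR, y, h1, Topo.adj_symm hxy⟩)
  have hyV : y ∈ V := by
    by_contra h1
    exact hyR (compl_sub_RV _ _ h1)
  obtain ⟨-, r, hr, hry⟩ := hyn.resolve_left hyR
  refine ⟨hyV, fun h1 => hyR (RV_step hr hry (Or.inr h1)), hyR, r, hr, hry, ?_⟩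
  rcases RV_sub _ _ hr with h1 | h1
  · exact Or.inr ⟨h1, y, hyV, Topo.adj_symm hry⟩
  · exact Or.inl h1

theorem rem_congr (hg : ∀ x, x ∉ rem V P h → g x = h x) : rem V P g = rem V P h := by
  unfold rem
  rw [RV_congr fun x hx => hg x fun h' => h' hx]

open Classical in
/-- The revealed data. -/
noncomputable def fib (V : Set Pt) (P : ℤ → Prop) (h : Hg) : Set Pt × Hg :=
  (rem V P h, fun x => if x ∈ rem V P h then 0 else h x)

theorem fib_iff : fib V P g = fib V P h ↔ ∀ x, x ∉ rem V P h → g x = h x := by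
  constructor
  · intro hf x hx
    have h1 : rem V P g = rem V P h := congrArg Prod.fst hf
    have h2 := congrFun (congrArg Prod.snd hf) x
    simp only [fib, h1, hx, if_false] at h2
    exact h2
  · intro hg
    have h1 := rem_congr hg
    unfold fib
    rw [h1]
    congr 1
    funext x
    by_cases hx : x ∈ rem V P h
    · simp only [hx, if_true]
    · simp only [hx, if_false]
      exact hg x hx

theorem fibre_eq {η : Hg} (hh : h ∈ Cx V η) :
    Cx V η ∩ {g | fib V P g = fib V P h} = Cx (rem V P h) h := by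
  rw [← Cx_agree hh (rem_sub V P h)]
  ext g
  simp only [mem_inter_iff, mem_ofPred_eq, fib_iff]

/-- Conditioning on the exploration: lower bound. -/
theorem expl_ge (hV : V.Finite) {η : Hg} {A B : Set Hg} {c : ℝ}
    (hB : ∀ a ∈ Cx V η, ∀ b ∈ Cx V η, fib V P a = fib V P b → (a ∈ B ↔ b ∈ B))
    (hc : ∀ h ∈ Cx V η, h ∈ B → c ≤ Pr (Cx (rem V P h) h) A) :
    c * Pr (Cx V η) B ≤ Pr (Cx V η) (B ∩ A) := by
  refine Pr_ge_of_fiber (Cx_finite hV η) (fib V P) A B hB fun h hh hhB => ?_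
  rw [fibre_eq hh]
  exact hc h hh hhB

/-- Events which depend on the explored set only. -/
theorem fib_event {Q : Set Pt → Prop} {a b : Hg} (hab : fib V P a = fib V P b) :
    Q (RV V (lv P a)) ↔ Q (RV V (lv P b)) := by
  rw [fib_iff] at hab
  rw [RV_congr fun x hx => hab x fun h' => h' hx]

end RV

/-! ### Positive association for finitely many events -/

section Fkg

variable {V : Set Pt} {I : Pt → Set ℤ}

theorem mono_ind {A : Set Hg} (hA : IsUpperSet A) : Monotone (ind A) := fun a b hab => by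
  unfold ind
  by_cases h1 : a ∈ A
  · rw [if_pos h1, if_pos (hA hab h1)]
  · rw [if_neg h1]; split_ifs <;> norm_num

theorem ind_mul {α : Type*} (A B : Set α) (a : α) : ind A a * ind B a = ind (A ∩ B) a := by
  classical
  unfold ind
  by_cases h1 : a ∈ A <;> by_cases h2 : a ∈ B <;> simp [h1, h2]

theorem Pr_upper_mul (hI : Dat V I) (hn : (Cfg V I).Nonempty) {A B : Set Hg} (hA : IsUpperSet A)
    (hB : IsUpperSet B) : Pr (Cfg V I) A * Pr (Cfg V I) B ≤ Pr (Cfg V I) (A ∩ B) := by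
  have := Cfg_fkg hI hn _ _ (mono_ind hA) (mono_ind hB)
  rw [Pr_eq_Ex (Cfg_finite hI), Pr_eq_Ex (Cfg_finite hI), Pr_eq_Ex (Cfg_finite hI)]
  simpa only [ind_mul] using this

theorem Pr_upper_pow (hI : Dat V I) (hn : (Cfg V I).Nonempty) {ι : Type*} (s : Finset ι)
    (E : ι → Set Hg) (hE : ∀ i ∈ s, IsUpperSet (E i)) {c : ℝ} (hc : 0 ≤ c)
    (h : ∀ i ∈ s, c ≤ Pr (Cfg V I) (E i)) : c ^ s.card ≤ Pr (Cfg V I) {g | ∀ i ∈ s, g ∈ E i} := by
  classical
  induction s using Finset.induction_on with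
  | empty =>
    have : {g : Hg | ∀ i ∈ (∅ : Finset ι), g ∈ E i} = univ := by ext; simp
    rw [this, Pr_univ (Cfg_finite hI) hn]
    simp
  | insert i s hi ih =>
    have h1 := ih (fun j hj => hE j (Finset.mem_insert_of_mem hj))
      fun j hj => h j (Finset.mem_insert_of_mem hj)
    have h2 : {g : Hg | ∀ j ∈ insert i s, g ∈ E j} = E i ∩ {g | ∀ j ∈ s, g ∈ E j} := by
      ext g; simp
    rw [h2, Finset.card_insert_of_notMem hi, pow_succ']
    refine (mul_le_mul (h i (Finset.mem_insert_self i s)) h1 (by positivity) (Pr_nonneg _ _)).trans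
      (Pr_upper_mul hI hn (hE i (Finset.mem_insert_self i s)) ?_)
    intro a b hab ha j hj
    exact hE j (Finset.mem_insert_of_mem hj) hab (ha j hj)

end Fkg

/-! ### Monotonicity of the non-crossing events -/

theorem NoCr.mono {S S' B B₁ B' B₁' : Set Pt} (hS : S' ⊆ S) (hB : B₁ ⊆ B) (hB' : B' ⊆ B₁')
    (h : NoCr S B B') : NoCr S' B₁ B₁' := fun x hx y hy hc =>
  h x (hB hx) y (fun h' => hy (hB' h')) (hc.mono hS)

theorem up_anti {g h : Hg} (hgh : g ≤ h) (a : ℤ) : up g a ⊆ up h a := fun x hx =>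
  le_trans (show a ≤ g x from hx) (hgh x)

theorem dn_mono {g h : Hg} (hgh : g ≤ h) (a : ℤ) : dn h a ⊆ dn g a := fun x hx =>
  le_trans (hgh x) (show h x ≤ a from hx)

theorem upper_NoCr_dn (a : ℤ) (B B' : Set Pt) : IsUpperSet {h : Hg | NoCr (dn h a) B B'} :=
  fun _ _ hgh hg => NoCr.mono (dn_mono hgh a) Subset.rfl Subset.rfl hg

end Vale.Agent.P153.R2.F2
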