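import Vale.Agent.P153.R2.F2.Net

/-!
# P153-R2, block F2 (helper640): (F2.4), (F2.5) level iteration and R0
-/

namespace Vale.Agent.P153.R2.F2

open Set Relation
open Vale.Agent.P153
open Vale.Agent.P153.Topo (Conn)
open Vale.Agent.P153.R2

/-- Layers. -/
def lay (A : Set Pt) (a b : ℤ) : Set Pt := thk A b \ thk A a

theorem lay_mono (A : Set Pt) {a b a' b' : ℤ} (ha : a ≤ a') (hb : b' ≤ b) :
    lay A a' b' ⊆ lay A a b := fun _ hx => ⟨thk_mono A hb hx.1, fun h => hx.2 (thk_mono A ha h)⟩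

theorem lay_adj {A : Set Pt} {a b : ℤ} {x y : Pt} (hx : x ∈ lay A (a + 1) (b - 1))
    (h : Adj x y) : y ∈ lay A a b := by
  constructor
  · have := thk_adj hx.1 h
    rwa [sub_add_cancel] at this
  · intro hy
    exact hx.2 (thk_adj hy (Topo.adj_symm h))

/-- The remaining domain contains the layer. -/
theorem lay_rem {V : Set Pt} {P : ℤ → Prop} {h : Hg} {A : Set Pt} {a b : ℤ}
    (hd : Disjoint (RV V (lv P h)) (lay A a b)) : lay A (a + 1) (b - 1) ⊆ rem V P h := by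
  rintro x hx (h1 | ⟨-, y, hy, hyx⟩)
  · exact Set.disjoint_left.1 hd h1 (lay_mono A (by omega) (by omega) hx)
  · exact Set.disjoint_left.1 hd hy (lay_adj hx (Topo.adj_symm hyx))

/-- Non-crossing of two layers protects the middle. -/
theorem mid_free {V A S : Set Pt} {a b t : ℤ} (_ht : 0 < t) (hV : lay A a b ⊆ V)
    (h1 : NoCr S (thk A (a + 1)) (thk A (a + t))) (h2 : NoCr S (thk A (b - t)) (thk A (b - 1)))
    (hmid : lay A (a + t) (b - t) ⊆ V) : Disjoint (RV V S) (lay A (a + t) (b - t)) := by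
  rw [Set.disjoint_left]
  intro x hx hxm
  -- either off `V`, or joined in `S` to a vertex next to the complement of `V`
  have key : x ∉ V ∨ ∃ u v, u ∉ V ∧ Adj u v ∧ v ∈ V ∧ Conn S v x := by
    refine RV_ind (fun x => x ∉ V ∨ ∃ u v, u ∉ V ∧ Adj u v ∧ v ∈ V ∧ Conn S v x)
      (fun x hx => Or.inl hx) (fun u v _ hu huv hv => ?_) hx
    by_cases hvV : v ∈ V
    · right
      have hvS : v ∈ S := hv.resolve_left fun h => h hvV
      rcases hu with hu | ⟨u', v', h3, h4, h5, h6⟩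
      · exact ⟨u, v, hu, huv, hvV, Conn.refl hvS⟩
      · exact ⟨u', v', h3, h4, h5, h6.tail huv hvS⟩
    · exact Or.inl hvV
  rcases key with h3 | ⟨u, v, hu, huv, -, hvx⟩
  · exact h3 (hmid hxm)
  · by_cases hua : u ∈ thk A a
    · exact h1 v (thk_adj hua huv) x hxm.2 hvx
    · have hub : u ∉ thk A b := fun h => hu (hV ⟨h, hua⟩)
      refine h2 x hxm.1 v (fun hv => hub ?_) hvx.symm
      have := thk_adj hv (Topo.adj_symm huv)
      rwa [sub_add_cancel] at this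

theorem odd_gt {m L : ℤ} (hm : Odd m) (hL : Odd L) (h : ¬ m ≤ L) : L + 2 ≤ m := by
  obtain ⟨i, hi⟩ := hm
  obtain ⟨j, hj⟩ := hL
  omega

/-- One level, data `≥ L`. -/
theorem lev_base {R s₀ : ℤ} {c : ℝ} (hR : 1 ≤ R) (hs₀ : 1 ≤ s₀) (hc : 0 < c) (h1 : OneS R s₀ c)
    (ρ : ℤ) : ∃ c' : ℝ, 0 < c' ∧ ∀ s, s₀ ≤ s → ∀ (q : Pt) (A V : Set Pt) (η : Hg) (L a b t : ℤ),
    A ⊆ bx q (ρ * s) → 0 ≤ a → (2 * R + 5) * s ≤ t → a + t ≤ b - t → b ≤ ρ * s → V.Finite →
    lay A a b ⊆ V → (Cx V η).Nonempty → Odd L →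
    (∀ x ∈ ebd V, L ≤ η x) → c' ≤ Pr (Cx V η)
      {h | Disjoint (RV V (dn h L)) (lay A (a + t) (b - t))} := by
  obtain ⟨c', hc', h2⟩ := net_dn hR hs₀ hc h1 ρ
  refine ⟨c' * c', by positivity, ?_⟩
  intro s hs q A V η L a b t hA ha ht hab hb hV hAV hne hL hη
  have hs1 : 1 ≤ s := hs₀.trans hs
  have ht0 : 0 < t := by nlinarith
  have ht' : (2 * R + 4) * s + 1 ≤ t := by nlinarith
  have k1 := h2 s hs q A V η L (a + 1) (a + t) hA (by omega) (by linarith) (by linarith) hV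
    ((lay_mono A (by omega) (by linarith)).trans hAV) hne hL hη
  have k2 := h2 s hs q A V η L (b - t) (b - 1) hA (by linarith) (by linarith) (by linarith) hV
    ((lay_mono A (by linarith) (by linarith)).trans hAV) hne hL hη
  refine (mul_le_mul k1 k2 hc'.le (Pr_nonneg _ _)).trans ((Pr_upper_mul (dat_exa hV η) hne
    (upper_NoCr_dn _ _ _) (upper_NoCr_dn _ _ _)).trans (Pr_mono fun h _ hh => ?_))
  exact mid_free ht0 hAV hh.1 hh.2 ((lay_mono A (by linarith) (by linarith)).trans hAV)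

/-- Level iteration, data `≥ L - 2 n`. -/
theorem lev_dn {R s₀ : ℤ} {c : ℝ} (hR : 1 ≤ R) (hs₀ : 1 ≤ s₀) (hc : 0 < c) (h1 : OneS R s₀ c)
    (ρ : ℤ) (n : ℕ) : ∃ c' : ℝ, 0 < c' ∧ ∀ s, s₀ ≤ s → ∀ (q : Pt) (A V : Set Pt) (η : Hg)
    (L a b t : ℤ), A ⊆ bx q (ρ * s) → 0 ≤ a → (2 * R + 7) * s ≤ t →
    a + (n + 1) * t ≤ b - (n + 1) * t → b ≤ ρ * s → V.Finite →
    lay A a b ⊆ V → (Cx V η).Nonempty → Odd L →
    (∀ x ∈ ebd V, L - 2 * n ≤ η x) → c' ≤ Pr (Cx V η)
      {h | Disjoint (RV V (dn h L)) (lay A (a + (n + 1) * t) (b - (n + 1) * t))} := by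
  obtain ⟨c₀, hc₀, h0⟩ := lev_base hR hs₀ hc h1 ρ
  induction n with
  | zero =>
    refine ⟨c₀, hc₀, ?_⟩
    intro s hs q A V η L a b t hA ha ht hab hb hV hAV hne hL hη
    have hs1 : 1 ≤ s := hs₀.trans hs
    simp only [Nat.cast_zero, zero_add, one_mul, mul_zero, sub_zero] at hab hη ⊢
    exact h0 s hs q A V η L a b t hA ha (by nlinarith) hab hb hV hAV hne hL hη
  | succ n ih =>
    obtain ⟨c', hc', hn⟩ := ih
    refine ⟨c' * c₀, by positivity, ?_⟩
    intro s hs q A V η L a b t hA ha ht hab hb hV hAV hne hL hη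
    have hs1 : 1 ≤ s := hs₀.trans hs
    have ht0 : 0 < t := by nlinarith
    push_cast at hab hη ⊢
    have hnt : (0 : ℤ) ≤ n * t := by positivity
    set L' : ℤ := L - 2 * (n + 1) with hL'
    have hL'o : Odd L' := by
      obtain ⟨j, hj⟩ := hL
      exact ⟨j - (n + 1), by rw [hL', hj]; ring⟩
    have k0 := h0 s hs q A V η L' a b (t - 1) hA ha (by nlinarith) (by nlinarith) hb hV hAV hne
      hL'o hη
    have key := expl_ge (V := V) (P := fun m => m ≤ L') hV (η := η)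
      (A := {h | Disjoint (RV V (dn h L)) (lay A (a + (n + 1 + 1) * t) (b - (n + 1 + 1) * t))})
      (B := {h | Disjoint (RV V (dn h L')) (lay A (a + (t - 1)) (b - (t - 1)))}) (c := c')
      (fun x _ y _ hxy => fib_event (P := fun m => m ≤ L') (Q := fun C => Disjoint C _) hxy) (fun h hh hhB => by
        have hlay : lay A (a + t) (b - t) ⊆ rem V (fun m => m ≤ L') h := by
          have := lay_rem hhB
          rwa [show a + (t - 1) + 1 = a + t by ring, show b - (t - 1) - 1 = b - t by ring] at this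
        have e1 : a + t + (n + 1) * t = a + (n + 1 + 1) * t := by ring
        have e2 : b - t - (n + 1) * t = b - (n + 1 + 1) * t := by ring
        have := hn s hs q A (rem V (fun m => m ≤ L') h) h L (a + t) (b - t) t hA (by linarith) ht
          (by rw [e1, e2]; exact hab) (by linarith) (rem_finite hV) hlay
          ⟨h, self_mem_Cx hh (rem_sub _ _ _)⟩ hL (fun y hy => by
            obtain ⟨-, hy2, -⟩ := ebd_rem hy
            have := odd_gt (hh.1 y) hL'o hy2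
            rw [hL'] at this
            linarith)
        rw [e1, e2] at this
        refine this.trans (Pr_mono fun g _ hg => ?_)
        exact Set.disjoint_of_subset_left (RV_mono (rem_sub _ _ _) Subset.rfl) hg)
    refine (mul_le_mul_of_nonneg_left k0 hc'.le).trans (key.trans (Pr_mono fun g _ hg => hg.2))

theorem flip_RV {V : Set Pt} (hV : V.Finite) (η : Hg) (L : ℤ) (K : Set Pt) :
    Pr (Cx V η) {h | Disjoint (RV V (up h L)) K} =
      Pr (Cx V (ng η)) {h | Disjoint (RV V (dn h (-L))) K} := by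
  rw [Pr_ng hV]
  refine Pr_congr fun h _ => ?_
  simp only [mem_ofPred_eq]
  rw [dn_ng, neg_neg]

theorem lev_up {R s₀ : ℤ} {c : ℝ} (hR : 1 ≤ R) (hs₀ : 1 ≤ s₀) (hc : 0 < c) (h1 : OneS R s₀ c)
    (ρ : ℤ) (n : ℕ) : ∃ c' : ℝ, 0 < c' ∧ ∀ s, s₀ ≤ s → ∀ (q : Pt) (A V : Set Pt) (η : Hg)
    (L a b t : ℤ), A ⊆ bx q (ρ * s) → 0 ≤ a → (2 * R + 7) * s ≤ t →
    a + (n + 1) * t ≤ b - (n + 1) * t → b ≤ ρ * s → V.Finite →
    lay A a b ⊆ V → (Cx V η).Nonempty → Odd L →
    (∀ x ∈ ebd V, η x ≤ L + 2 * n) → c' ≤ Pr (Cx V η)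
      {h | Disjoint (RV V (up h L)) (lay A (a + (n + 1) * t) (b - (n + 1) * t))} := by
  obtain ⟨c', hc', h2⟩ := lev_dn hR hs₀ hc h1 ρ n
  refine ⟨c', hc', ?_⟩
  intro s hs q A V η L a b t hA ha ht hab hb hV hAV hne hL hη
  rw [flip_RV hV]
  refine h2 s hs q A V (ng η) (-L) a b t hA ha ht hab hb hV hAV (Cx_ng_ne hne) hL.neg
    fun x hx => ?_
  have := hη x hx
  unfold ng
  linarith

theorem s_lev : S_lev := by
  intro R s₀ c hR hs₀ hc h1 ρ n
  obtain ⟨c₁, hc₁, h2⟩ := lev_dn hR hs₀ hc h1 ρ n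
  obtain ⟨c₂, hc₂, h3⟩ := lev_up hR hs₀ hc h1 ρ n
  refine ⟨min c₁ c₂, lt_min hc₁ hc₂, ?_⟩
  intro s hs q A V η L a b t hA ha ht hab hb hV hAV hne hL
  exact ⟨fun hη => (min_le_right _ _).trans (h3 s hs q A V η L a b t hA ha ht hab hb hV hAV hne
    hL hη), fun hη => (min_le_left _ _).trans (h2 s hs q A V η L a b t hA ha ht hab hb hV hAV hne
    hL hη)⟩

/-- Non-crossing form, data `≥ L - 2 n`. -/
theorem ncr_dn {R s₀ : ℤ} {c : ℝ} (hR : 1 ≤ R) (hs₀ : 1 ≤ s₀) (hc : 0 < c) (h1 : OneS R s₀ c)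
    (ρ : ℤ) (n : ℕ) : ∃ c' : ℝ, 0 < c' ∧ ∀ s, s₀ ≤ s → ∀ (q : Pt) (A V : Set Pt) (η : Hg)
    (L a b : ℤ), A ⊆ bx q (ρ * s) → 0 ≤ a → a + (2 * n + 3) * ((2 * R + 7) * s) ≤ b →
    b ≤ ρ * s → V.Finite → lay A a b ⊆ V → (Cx V η).Nonempty → Odd L →
    (∀ x ∈ ebd V, L - 2 * n ≤ η x) →
      c' ≤ Pr (Cx V η) {h | NoCr (dn h L) (thk A a) (thk A b)} := by
  obtain ⟨c₀, hc₀, h0⟩ := net_dn hR hs₀ hc h1 ρ
  cases n with
  | zero =>
    refine ⟨c₀, hc₀, ?_⟩
    intro s hs q A V η L a b hA ha hab hb hV hAV hne hL hη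
    have hs1 : 1 ≤ s := hs₀.trans hs
    simp only [Nat.cast_zero, mul_zero, zero_add, sub_zero] at hab hη
    exact h0 s hs q A V η L a b hA ha (by nlinarith) hb hV hAV hne hL hη
  | succ n =>
    obtain ⟨c', hc', hn⟩ := lev_dn hR hs₀ hc h1 ρ n
    refine ⟨c₀ * c', by positivity, ?_⟩
    intro s hs q A V η L a b hA ha hab hb hV hAV hne hL hη
    have hs1 : 1 ≤ s := hs₀.trans hs
    set t : ℤ := (2 * R + 7) * s with ht
    have ht9 : 9 ≤ t := by nlinarith
    have ht0 : 0 < t := by linarith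
    have htR : (2 * R + 4) * s + 2 ≤ t := by nlinarith
    push_cast at hab hη
    have hnt : (0 : ℤ) ≤ n * t := by positivity
    have hL2 : Odd (L - 2) := by
      obtain ⟨j, hj⟩ := hL
      exact ⟨j - 1, by rw [hj]; ring⟩
    have k0 := hn s hs q A V η (L - 2) a b t hA ha le_rfl (by nlinarith) hb hV hAV hne hL2
      (fun x hx => by have := hη x hx; linarith)
    have key := expl_ge (V := V) (P := fun m => m ≤ L - 2) hV (η := η)
      (A := {h | NoCr (dn h L) (thk A a) (thk A b)})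
      (B := {h | Disjoint (RV V (dn h (L - 2))) (lay A (a + (n + 1) * t) (b - (n + 1) * t))})
      (c := c₀) (fun x _ y _ hxy => fib_event (P := fun m => m ≤ L - 2) (Q := fun C => Disjoint C _) hxy)
      (fun h hh hhB => by
        have hlay : lay A (a + (n + 1) * t + 1) (b - (n + 1) * t - 1) ⊆
          rem V (fun m => m ≤ L - 2) h := lay_rem hhB
        have := h0 s hs q A (rem V (fun m => m ≤ L - 2) h) h L (a + (n + 1) * t + 1)
          (b - (n + 1) * t - 1) hA (by nlinarith) (by nlinarith) (by nlinarith) (rem_finite hV)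
          hlay ⟨h, self_mem_Cx hh (rem_sub _ _ _)⟩ hL (fun y hy => by
            obtain ⟨-, hy2, -⟩ := ebd_rem hy
            have := odd_gt (hh.1 y) hL2 hy2
            linarith)
        refine this.trans (Pr_mono fun g _ hg => ?_)
        exact NoCr.mono Subset.rfl (thk_mono A (by nlinarith)) (thk_mono A (by nlinarith)) hg)
    refine (mul_le_mul_of_nonneg_left k0 hc₀.le).trans (key.trans (Pr_mono fun g _ hg => hg.2))

theorem s_ncr : S_ncr := by
  intro R s₀ c hR hs₀ hc h1 ρ n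
  obtain ⟨c', hc', h2⟩ := ncr_dn hR hs₀ hc h1 ρ n
  refine ⟨c', hc', ?_⟩
  intro s hs q A V η L a b hA ha hab hb hV hAV hne hL
  refine ⟨fun hη => ?_, fun hη => h2 s hs q A V η L a b hA ha hab hb hV hAV hne hL hη⟩
  rw [flip_NoCr hV]
  refine h2 s hs q A V (ng η) (-L) a b hA ha hab hb hV hAV (Cx_ng_ne hne) hL.neg fun x hx => ?_
  have := hη x hx
  unfold ng
  linarith

/-! ### R0 -/

/-- An open path from the complement of `V'` stays on the negative side if the data are negative. -/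
theorem open_neg {V V' : Set Pt} (hV' : V' ⊆ V) {g : Hg} (hlip : ∀ x ∈ V', ∀ y, Adj x y →
    |g x - g y| ≤ 2) (hodd : ∀ x, Odd (g x)) (hbd : ∀ y ∈ ebd V', g y ≤ -1) {y : Pt}
    (hy : y ∈ CluL 0 Vᶜ g) : y ∉ V' ∨ (y ∈ RV V' (dn g (-1)) ∧ g y ≤ -1) := by
  obtain ⟨x, hx, hxy⟩ := hy
  induction hxy with
  | refl => exact Or.inl fun h => hx (hV' h)
  | @tail u v _ huv ih =>
    by_cases hv : v ∈ V'
    · right
      obtain ⟨huv1, huv2⟩ := huv
      have hu : u ∈ RV V' (dn g (-1)) ∧ g u ≤ -1 := by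
        rcases ih with h1 | h1
        · exact ⟨compl_sub_RV _ _ h1, hbd u ⟨h1, v, hv, Topo.adj_symm huv1⟩⟩
        · exact h1
      have h2 := hlip v hv u (Topo.adj_symm huv1)
      rw [abs_le] at h2
      have hgv : g v ≤ -1 := by
        by_contra hcon
        have h3 : 1 ≤ g v := by
          obtain ⟨i, hi⟩ := hodd v
          omega
        apply huv2
        have e1 : g v = 1 := by omega
        have e2 : g u = -1 := by omega
        rw [e1, e2]
        norm_num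
      exact ⟨RV_step hu.1 huv1 (Or.inr hgv), hgv⟩
    · exact Or.inl hv

theorem CluL_mono {m : ℤ} {A B : Set Pt} (h : A ⊆ B) (g : Hg) : CluL m A g ⊆ CluL m B g :=
  fun _ ⟨x, hx, hy⟩ => ⟨x, h hx, hy⟩

theorem r0_aux {R s₀ : ℤ} {c : ℝ} (hR : 1 ≤ R) (hs₀ : 1 ≤ s₀) (hc : 0 < c) (h1 : OneS R s₀ c)
    (ρ : ℤ) (n : ℕ) : ∃ c' : ℝ, 0 < c' ∧ ∀ s, s₀ ≤ s → ∀ (q : Pt) (A V : Set Pt) (η : Hg)
    (a b t : ℤ), A ⊆ bx q (ρ * s) → 0 ≤ a → (2 * R + 7) * s ≤ t →
    a + (2 * n + 4) * t ≤ b - (2 * n + 4) * t →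
    b ≤ ρ * s → V.Finite → lay A a b ⊆ V → (Cx V η).Nonempty →
    Bdd V η (-(2 * n + 1)) (2 * n + 1) → c' ≤ Pr (Cx V η)
      {h | Disjoint (CluL 0 Vᶜ h) (lay A (a + (2 * n + 4) * t) (b - (2 * n + 4) * t))} := by
  obtain ⟨c₁, hc₁, h2⟩ := lev_up hR hs₀ hc h1 ρ n
  obtain ⟨c₂, hc₂, h3⟩ := lev_dn hR hs₀ hc h1 ρ (n + 1)
  refine ⟨c₂ * c₁, by positivity, ?_⟩
  intro s hs q A V η a b t hA ha ht hab hb hV hAV hne hη
  have hs1 : 1 ≤ s := hs₀.trans hs
  have ht9 : 9 ≤ t := by nlinarith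
  have hnt : (0 : ℤ) ≤ n * t := by positivity
  have k0 := h2 s hs q A V η 1 a b t hA ha ht (by nlinarith) hb hV hAV hne odd_one
    (fun x hx => by have := (hη x hx).2; linarith)
  have key := expl_ge (V := V) (P := fun m => 1 ≤ m) hV (η := η)
    (A := {h | Disjoint (CluL 0 Vᶜ h) (lay A (a + (2 * n + 4) * t) (b - (2 * n + 4) * t))})
    (B := {h | Disjoint (RV V (up h 1)) (lay A (a + (n + 1) * t) (b - (n + 1) * t))})
    (c := c₂) (fun x _ y _ hxy => fib_event (P := fun m => 1 ≤ m) (Q := fun C => Disjoint C _) hxy)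
    (fun h hh hhB => by
      set V' := rem V (fun m => 1 ≤ m) h with hV'
      have hlay : lay A (a + (n + 1) * t + 1) (b - (n + 1) * t - 1) ⊆ V' := lay_rem hhB
      have hbd : ∀ y ∈ ebd V', h y ≤ -1 ∧ -1 - 2 * ((n + 1 : ℕ) : ℤ) ≤ h y := by
        intro y hy
        obtain ⟨hyV, hy2, -, r, -, hry, hr⟩ := ebd_rem hy
        have e1 := hh.2.2 y hyV r (Topo.adj_symm hry)
        have e2 := hh.1 y
        rw [abs_le] at e1
        obtain ⟨i, hi⟩ := e2
        refine ⟨by omega, ?_⟩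
        push_cast
        rcases hr with hr | hr
        · omega
        · have e3 := (hη r hr).1
          have e4 : h r = η r := Cx_out hh hr.1
          omega
      have := h3 s hs q A V' h (-1) (a + (n + 2) * t) (b - (n + 2) * t) t hA (by nlinarith) ht
        (by push_cast; nlinarith) (by nlinarith) (rem_finite hV)
        ((lay_mono A (by nlinarith) (by nlinarith)).trans hlay)
        ⟨h, self_mem_Cx hh (rem_sub _ _ _)⟩ (by decide) (fun y hy => (hbd y hy).2)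
      refine this.trans (Pr_mono fun g hg hgd => ?_)
      have e5 : a + (n + 2) * t + (((n + 1 : ℕ) : ℤ) + 1) * t = a + (2 * n + 4) * t := by
        push_cast; ring
      have e6 : b - (n + 2) * t - (((n + 1 : ℕ) : ℤ) + 1) * t = b - (2 * n + 4) * t := by
        push_cast; ring
      rw [mem_ofPred_eq, e5, e6] at hgd
      rw [mem_ofPred_eq, Set.disjoint_left]
      intro y hy hym
      have hyV' : y ∈ V' := hlay (lay_mono A (by nlinarith) (by nlinarith) hym)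
      rcases open_neg (V' := V') (rem_sub _ _ _) hg.2.2 hg.1 (fun z hz => by
        rw [Cx_out hg hz.1]; exact (hbd z hz).1) hy with h5 | h5
      · exact h5 hyV'
      · exact Set.disjoint_left.1 hgd h5.1 hym)
  refine (mul_le_mul_of_nonneg_left k0 hc₂.le).trans (key.trans (Pr_mono fun g _ hg => hg.2))

theorem s_r0 : S_r0 := by
  intro R s₀ c hR hs₀ hc h1 ρ n
  obtain ⟨c', hc', h2⟩ := r0_aux hR hs₀ hc h1 ρ n
  refine ⟨c', 2 * n + 4, hc', ?_⟩
  intro s hs q A V η a b t hA ha ht hab hb hV hAV hne hη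
  push_cast at hab ⊢
  exact h2 s hs q A V η a b t hA ha ht hab hb hV hAV hne hη

theorem s_r0sh : S_r0sh := by
  intro R s₀ c hR hs₀ hc h1 ρ n
  obtain ⟨c', hc', h2⟩ := r0_aux hR hs₀ hc h1 ρ n
  refine ⟨c', 2 * n + 5, hc', ?_⟩
  intro s hs q A V η a b t hA ha ht hab hb hV hAV hne
  have hs1 : 1 ≤ s := hs₀.trans hs
  have ht9 : 9 ≤ t := by nlinarith
  have hnt : (0 : ℤ) ≤ n * t := by positivity
  push_cast at hab ⊢
  refine expl_ge (V := V) (P := fun m => 2 * (n : ℤ) + 3 ≤ |m|) hV (η := η)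
    (A := {h | Disjoint (CluL 0 Vᶜ h) (lay A (a + (2 * n + 5) * t) (b - (2 * n + 5) * t))})
    (B := {h | Disjoint (RV V {x | 2 * (n : ℤ) + 3 ≤ |h x|}) (lay A a b)})
    (c := c') (fun x _ y _ hxy => fib_event (P := fun m => 2 * (n : ℤ) + 3 ≤ |m|) (Q := fun C => Disjoint C _) hxy)
    (fun h hh hhB => ?_)
  set V' := rem V (fun m => 2 * (n : ℤ) + 3 ≤ |m|) h with hV'
  have hlay : lay A (a + 1) (b - 1) ⊆ V' := lay_rem hhB
  have := h2 s hs q A V' h (a + 1) (b - 1) t hA (by linarith) ht (by nlinarith) (by linarith)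
    (rem_finite hV) hlay ⟨h, self_mem_Cx hh (rem_sub _ _ _)⟩ (fun y hy => by
      obtain ⟨-, hy2, -⟩ := ebd_rem hy
      have e2 := hh.1 y
      have e3 : |h y| < 2 * n + 3 := lt_of_not_ge hy2
      rw [abs_lt] at e3
      obtain ⟨i, hi⟩ := e2
      omega)
  refine this.trans (Pr_mono fun g hg hgd => ?_)
  rw [mem_ofPred_eq] at hgd ⊢
  refine Set.disjoint_of_subset (CluL_mono (Set.compl_subset_compl.2 (rem_sub _ _ _)) g)
    (lay_mono A (by nlinarith) (by nlinarith)) hgd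

end Vale.Agent.P153.R2.F2
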