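import Vale.Agent.P153.R2.F2.Expl

/-!
# P153-R2, block F2 (helper640): (F2.3) the net argument
-/

namespace Vale.Agent.P153.R2.F2

open Set Relation
open Vale.Agent.P153
open Vale.Agent.P153.Topo (Conn)
open Vale.Agent.P153.R2

/-! ### Geometry of neighbourhoods -/

theorem adj_abs {x y : Pt} (h : Adj x y) : |y.1 - x.1| ≤ 1 ∧ |y.2 - x.2| ≤ 1 := by
  have := Topo.adj_iff.1 h
  rw [abs_le, abs_le]
  omega

theorem thk_mono (A : Set Pt) {r r' : ℤ} (h : r ≤ r') : thk A r ⊆ thk A r' := by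
  rintro x ⟨a, ha, h1, h2⟩
  exact ⟨a, ha, h1.trans h, h2.trans h⟩

theorem thk_add {A : Set Pt} {r d : ℤ} {x y : Pt} (hx : x ∈ thk A r) (h1 : |y.1 - x.1| ≤ d)
    (h2 : |y.2 - x.2| ≤ d) : y ∈ thk A (r + d) := by
  obtain ⟨a, ha, h3, h4⟩ := hx
  refine ⟨a, ha, ?_, ?_⟩
  · rw [abs_le] at *; omega
  · rw [abs_le] at *; omega

theorem thk_adj {A : Set Pt} {r : ℤ} {x y : Pt} (hx : x ∈ thk A r) (h : Adj x y) :
    y ∈ thk A (r + 1) := thk_add hx (adj_abs h).1 (adj_abs h).2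

theorem thk_bx {A : Set Pt} {q : Pt} {r d : ℤ} (hA : A ⊆ bx q d) : thk A r ⊆ bx q (d + r) := by
  rintro x ⟨a, ha, h1, h2⟩
  obtain ⟨h3, h4⟩ := hA ha
  constructor
  · rw [abs_le] at *; omega
  · rw [abs_le] at *; omega

theorem thk_finite {A : Set Pt} {q : Pt} {r d : ℤ} (hA : A ⊆ bx q d) : (thk A r).Finite := by
  refine Set.Finite.subset ?_ (thk_bx (r := r) hA)
  refine ((Set.finite_Icc (q.1 - (d + r)) (q.1 + (d + r))).prod
    (Set.finite_Icc (q.2 - (d + r)) (q.2 + (d + r)))).subset ?_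
  rintro x ⟨h1, h2⟩
  rw [abs_le] at h1 h2
  simp only [Set.mem_prod, Set.mem_Icc]
  omega

/-- A path from `B` to the complement of `B'` has a vertex off `B'` next to `B'`, or starts off. -/
theorem Conn.exit {S C : Set Pt} {x y : Pt} (h : Conn S x y) (hx : x ∈ C) (hy : y ∉ C) :
    ∃ u v, Conn S x u ∧ u ∈ C ∧ v ∉ C ∧ Adj u v ∧ Conn S v y ∧ Conn S x v := by
  obtain ⟨hxS, h⟩ := h
  revert hx
  induction h using Relation.ReflTransGen.head_induction_on with
  | refl => exact fun hx => absurd hx hy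
  | @head a c hac hcy ih =>
    intro ha
    by_cases hc : c ∈ C
    · obtain ⟨u, v, h1, h2, h3, h4, h5, h6⟩ := ih hac.2 hc
      exact ⟨u, v, (Conn.of_adj hxS hac.2 hac.1).trans h1, h2, h3, h4, h5,
        (Conn.of_adj hxS hac.2 hac.1).trans h6⟩
    · exact ⟨a, c, Conn.refl hxS, ha, hc, hac.1, ⟨hac.2, hcy⟩, Conn.of_adj hxS hac.2 hac.1⟩

/-- The net. -/
theorem net_det {S A : Set Pt} {R s a b : ℤ} (hs : 1 ≤ s) (hR : 1 ≤ R)
    (hab : a + (2 * R + 4) * s ≤ b)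
    (h : ∀ y : Pt, bx (s * y.1, s * y.2) (R * s) ⊆ thk A b \ thk A a →
      NoCr S (bx (s * y.1, s * y.2) s) (bx (s * y.1, s * y.2) (R * s))) :
    NoCr S (thk A a) (thk A b) := by
  intro x hx y hy hc
  have hRs : 0 ≤ R * s := by positivity
  set d : ℤ := a + (R + 2) * s with hd
  have hd0 : a ≤ d := by nlinarith
  have hdb : d ≤ b := by nlinarith
  obtain ⟨u, v, h1, h2, h3, h4, -, h6⟩ := Conn.exit hc (thk_mono A hd0 hx)
    (fun h' => hy (thk_mono A hdb h'))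
  have hv : v ∈ thk A (d + 1) := thk_adj h2 h4
  set z : Pt := (v.1 / s, v.2 / s) with hz
  have e1 : |v.1 - s * z.1| ≤ s := by
    have h7 := Int.emod_add_mul_ediv v.1 s
    have h8 := Int.emod_nonneg v.1 (by omega : s ≠ 0)
    have h9 := Int.emod_lt_of_pos v.1 (by omega : 0 < s)
    simp only [hz]
    rw [abs_le]
    constructor <;> linarith
  have e2 : |v.2 - s * z.2| ≤ s := by
    have h7 := Int.emod_add_mul_ediv v.2 s
    have h8 := Int.emod_nonneg v.2 (by omega : s ≠ 0)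
    have h9 := Int.emod_lt_of_pos v.2 (by omega : 0 < s)
    simp only [hz]
    rw [abs_le]
    constructor <;> linarith
  have hbox : bx (s * z.1, s * z.2) (R * s) ⊆ thk A b \ thk A a := by
    rintro w ⟨hw1, hw2⟩
    simp only at hw1 hw2
    have g1 : |w.1 - v.1| ≤ (R + 1) * s := by
      rw [abs_le] at *
      constructor <;> linarith
    have g2 : |w.2 - v.2| ≤ (R + 1) * s := by
      rw [abs_le] at *
      constructor <;> linarith
    constructor
    · refine thk_mono A ?_ (thk_add hv g1 g2)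
      nlinarith
    · intro hw
      apply h3
      refine thk_mono A ?_ (thk_add hw (d := (R + 1) * s) (y := v) ?_ ?_)
      · nlinarith
      · rwa [abs_sub_comm]
      · rwa [abs_sub_comm]
  refine h z hbox v ⟨e1, e2⟩ x (fun hxb => (hbox hxb).2 hx) h6.symm

/-! ### The probability estimate -/

theorem flip_NoCr {V : Set Pt} (hV : V.Finite) (η : Hg) (L : ℤ) (B B' : Set Pt) :
    Pr (Cx V η) {h | NoCr (up h L) B B'} = Pr (Cx V (ng η)) {h | NoCr (dn h (-L)) B B'} := by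
  rw [Pr_ng hV]
  refine Pr_congr fun h _ => ?_
  simp only [mem_ofPred_eq]
  rw [dn_ng, neg_neg]

theorem net_dn {R s₀ : ℤ} {c : ℝ} (hR : 1 ≤ R) (hs₀ : 1 ≤ s₀) (hc : 0 < c) (h1 : OneS R s₀ c)
    (ρ : ℤ) : ∃ c' : ℝ, 0 < c' ∧ ∀ s, s₀ ≤ s → ∀ (q : Pt) (A V : Set Pt) (η : Hg) (L a b : ℤ),
    A ⊆ bx q (ρ * s) → 0 ≤ a → a + (2 * R + 4) * s ≤ b → b ≤ ρ * s → V.Finite →
    thk A b \ thk A a ⊆ V → (Cx V η).Nonempty → Odd L →
    (∀ x ∈ ebd V, L ≤ η x) → c' ≤ Pr (Cx V η) {h | NoCr (dn h L) (thk A a) (thk A b)} := by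
  classical
  refine ⟨(min c 1) ^ ((4 * ρ + 2).toNat ^ 2), by positivity, ?_⟩
  intro s hs q A V η L a b hA ha hab hb hV hAV hne hL hη
  have hs1 : 1 ≤ s := hs₀.trans hs
  set N : Finset Pt := ((Finset.Icc (q.1 / s - 2 * ρ) (q.1 / s + 2 * ρ + 1)) ×ˢ
    (Finset.Icc (q.2 / s - 2 * ρ) (q.2 / s + 2 * ρ + 1))).filter
      fun y => bx (s * y.1, s * y.2) (R * s) ⊆ thk A b \ thk A a with hN
  have hcard : N.card ≤ (4 * ρ + 2).toNat ^ 2 := by
    refine (Finset.card_filter_le _ _).trans ?_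
    rw [Finset.card_product, Int.card_Icc, Int.card_Icc, sq]
    apply Nat.mul_le_mul
    · apply Int.toNat_le_toNat; omega
    · apply Int.toNat_le_toNat; omega
  have hc1 : 0 < min c 1 := lt_min hc one_pos
  have h2 := Pr_upper_pow (V := V) (I := exa V η) (dat_exa hV η) hne N
    (fun y => {h : Hg | NoCr (dn h L) (bx (s * y.1, s * y.2) s) (bx (s * y.1, s * y.2) (R * s))})
    (fun y _ => upper_NoCr_dn _ _ _) hc1.le (fun y hy => by
      rw [hN, Finset.mem_filter] at hy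
      refine (min_le_left _ _).trans ((h1 s hs _ V η L hV (hy.2.trans hAV) hne hL).2 hη))
  refine (pow_le_pow_of_le_one hc1.le (min_le_right _ _) hcard).trans (h2.trans ?_)
  refine Pr_mono fun h _ hh => ?_
  refine net_det hs1 hR hab fun y hy => hh y ?_
  rw [hN, Finset.mem_filter]
  refine ⟨?_, hy⟩
  have h3 : ((s * y.1, s * y.2) : Pt) ∈ bx q (ρ * s + b) := by
    apply thk_bx hA
    apply (hy _).1
    constructor <;> simp only [sub_self, abs_zero] <;> positivity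
  obtain ⟨h4, h5⟩ := h3
  simp only at h4 h5
  have key : ∀ u v : ℤ, |s * u - v| ≤ ρ * s + b → v / s - 2 * ρ ≤ u ∧ u ≤ v / s + 2 * ρ + 1 := by
    intro u v huv
    rw [abs_le] at huv
    have e1 := Int.emod_add_mul_ediv v s
    have e2 := Int.emod_nonneg v (by omega : s ≠ 0)
    have e3 := Int.emod_lt_of_pos v (by omega : 0 < s)
    have e4 : s * (v / s - 2 * ρ) ≤ s * u := by
      have : s * (v / s - 2 * ρ) = s * (v / s) - 2 * (ρ * s) := by ring
      rw [this]; linarith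
    have e5 : s * u < s * (v / s + 2 * ρ + 1) := by
      have : s * (v / s + 2 * ρ + 1) = s * (v / s) + 2 * (ρ * s) + s := by ring
      rw [this]; linarith
    exact ⟨le_of_mul_le_mul_left e4 (by omega), (lt_of_mul_lt_mul_left e5 (by omega)).le⟩
  rw [Finset.mem_product, Finset.mem_Icc, Finset.mem_Icc]
  exact ⟨key _ _ h4, key _ _ h5⟩

theorem ng_bd {V : Set Pt} {η : Hg} {L : ℤ} (h : ∀ x ∈ ebd V, η x ≤ L) :
    ∀ x ∈ ebd V, -L ≤ ng η x := fun x hx => by
  have := h x hx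
  unfold ng
  omega

theorem Cx_ng_ne {V : Set Pt} {η : Hg} (h : (Cx V η).Nonempty) : (Cx V (ng η)).Nonempty :=
  h.imp' ng fun _ hx => ng_mem hx

theorem s_net : S_net := by
  intro R s₀ c hR hs₀ hc h1 ρ
  obtain ⟨c', hc', h2⟩ := net_dn hR hs₀ hc h1 ρ
  refine ⟨c', hc', fun s hs q A V η L a b hA ha hab hb hV hAV hne hL => ⟨fun hη => ?_, fun hη => ?_⟩⟩
  · rw [flip_NoCr hV]
    refine h2 s hs q A V (ng η) (-L) a b hA ha ?_ hb hV hAV (Cx_ng_ne hne) hL.neg (ng_bd hη)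
    nlinarith [hs₀.trans hs]
  · refine h2 s hs q A V η L a b hA ha ?_ hb hV hAV hne hL hη
    nlinarith [hs₀.trans hs]

end Vale.Agent.P153.R2.F2
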