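import Vale.Agent.P153.R2.F2.Sign
import Vale.Agent.P153.R2.FKGK.Box

/-!
# P153-R2, block F2 (helper640): (F2.2) one-sided non-crossings from the box statement
-/

namespace Vale.Agent.P153.R2.F2

open Set Relation
open Vale.Agent.P153
open Vale.Agent.P153.Topo (Conn)
open Vale.Agent.P153.R2

/-- Non-crossing of `B'` depends on the vertices of `nb B'`. -/
theorem NoCr_local {S S' X B : Set Pt} (hXB : X ⊆ B) (hS : ∀ x ∈ nb B, x ∈ S' → x ∈ S)
    (h : NoCr S X B) : NoCr S' X B := by
  intro x hx y hy hc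
  obtain ⟨hxS, hc⟩ := hc
  have hxn : x ∈ nb B := Or.inl (hXB hx)
  -- the path until the exit from `B`
  have key : ∀ y, ReflTransGen (fun u v => Adj u v ∧ v ∈ S') x y →
      (∃ z, z ∉ B ∧ Conn S x z) ∨ (y ∈ B ∧ Conn S x y) := by
    intro y hy
    induction hy with
    | refl => exact Or.inr ⟨hXB hx, Conn.refl (hS x hxn hxS)⟩
    | @tail u v _ huv ih =>
      rcases ih with h1 | ⟨h1, h2⟩
      · exact Or.inl h1
      · have hvn : v ∈ nb B := by
          by_cases hv : v ∈ B
          · exact Or.inl hv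
          · exact Or.inr ⟨hv, u, h1, huv.1⟩
        have h3 := h2.tail huv.1 (hS v hvn huv.2)
        by_cases hv : v ∈ B
        · exact Or.inr ⟨hv, h3⟩
        · exact Or.inl ⟨v, hv, h3⟩
  rcases key y hc with ⟨z, hz, h1⟩ | ⟨h1, -⟩
  · exact h x hx z hz h1
  · exact hy h1

theorem nbl {V : Set Pt} {x : Pt} (h : x ∈ V) : x ∈ nb V := Or.inl h

theorem nbr {V : Set Pt} {x : Pt} (h : x ∈ ebd V) : x ∈ nb V := Or.inr h

section Data

variable {V B : Set Pt} {η : Hg} {m : ℤ}

open Classical in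
/-- Free data at level `m` on the outer boundary of `V`, `η` farther away. -/
noncomputable def fre (V : Set Pt) (η : Hg) (m : ℤ) : Pt → Set ℤ := fun x =>
  if x ∈ V then univ else if x ∈ ebd V then {m - 1, m + 1} else {η x}

open Classical in
/-- The same data, and `{m - 1, m + 1}` on `V` off `B`. -/
noncomputable def frb (V B : Set Pt) (η : Hg) (m : ℤ) : Pt → Set ℤ := fun x =>
  if x ∈ B then univ else if x ∈ nb V then {m - 1, m + 1} else {η x}

theorem fre_dat (hV : V.Finite) : Dat V (fre V η m) := by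
  refine ⟨hV, fun x hx => ?_, (nb_finite hV).subset fun x hx => ?_⟩
  · unfold fre
    rw [if_neg hx]
    split_ifs
    · exact Set.toFinite _
    · exact Set.finite_singleton _
  · by_contra hxn
    apply hx
    unfold fre
    rw [if_neg (fun h => hxn (Or.inl h)), if_neg (fun h => hxn (Or.inr h))]
    exact Set.subsingleton_singleton

theorem frb_dat (hV : V.Finite) (hB : B ⊆ V) : Dat V (frb V B η m) := by
  refine ⟨hV, fun x hx => ?_, (nb_finite hV).subset fun x hx => ?_⟩
  · unfold frb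
    rw [if_neg (fun h => hx (hB h))]
    split_ifs
    · exact Set.toFinite _
    · exact Set.finite_singleton _
  · by_contra hxn
    apply hx
    unfold frb
    rw [if_neg (fun h => hxn (Or.inl (hB h))), if_neg hxn]
    exact Set.subsingleton_singleton

open Classical in
/-- A configuration: `m + 1` on `nb V`. -/
noncomputable def bsc (V : Set Pt) (η : Hg) (m : ℤ) : Hg := fun x => if x ∈ nb V then m + 1 else η x

theorem bsc_in {x : Pt} (h : x ∈ nb V) : bsc V η m x = m + 1 := if_pos h

theorem bsc_out {x : Pt} (h : x ∉ nb V) : bsc V η m x = η x := if_neg h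

theorem base_odd (hm : Even m) (hη : ∀ x, x ∉ nb V → Odd (η x)) (x : Pt) :
    Odd (bsc V η m x) := by
  by_cases h : x ∈ nb V
  · rw [bsc_in h]; exact hm.add_odd odd_one
  · rw [bsc_out h]; exact hη x h

theorem base_lip {x : Pt} (hx : x ∈ V) (y : Pt) (hxy : Adj x y) :
    |bsc V η m x - bsc V η m y| ≤ 2 := by
  have := Tr.mem_nb_of_left hx hxy
  rw [bsc_in this.1, bsc_in this.2]
  simp

theorem fre_ne (hm : Even m) (hη : ∀ x, x ∉ nb V → Odd (η x)) : (Cfg V (fre V η m)).Nonempty := by
  refine ⟨bsc V η m, base_odd hm hη, fun x => ?_, fun x hx y hxy => base_lip hx y hxy⟩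
  unfold fre
  by_cases h1 : x ∈ V
  · rw [if_pos h1]; exact mem_univ _
  · by_cases h2 : x ∈ ebd V
    · rw [if_neg h1, if_pos h2, bsc_in (nbr h2)]; simp
    · rw [if_neg h1, if_neg h2, bsc_out (fun h => h.elim h1 h2)]; exact mem_singleton _

theorem frb_ne (_hB : B ⊆ V) (hm : Even m) (hη : ∀ x, x ∉ nb V → Odd (η x)) :
    (Cfg V (frb V B η m)).Nonempty := by
  refine ⟨bsc V η m, base_odd hm hη, fun x => ?_, fun x hx y hxy => base_lip hx y hxy⟩
  unfold frb
  by_cases h1 : x ∈ B
  · rw [if_pos h1]; exact mem_univ _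
  · by_cases h2 : x ∈ nb V
    · rw [if_neg h1, if_pos h2, bsc_in h2]; simp
    · rw [if_neg h1, if_neg h2, bsc_out h2]; exact mem_singleton _

theorem cmp_frb (hV : V.Finite) (hB : B ⊆ V) (hm : Even m) (hη : ∀ x, x ∉ nb V → Odd (η x)) :
    Cmp V (frb V B η m) (fre V η m) m 1 where
  even := hm
  sg := Or.inl rfl
  dI := frb_dat hV hB
  dJ := fre_dat hV
  fin := by
    refine hV.subset fun x hx => ?_
    by_contra hxV
    apply hx
    unfold frb fre
    rw [if_neg (fun h => hxV (hB h)), if_neg hxV]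
    by_cases h2 : x ∈ ebd V
    · rw [if_pos (nbr h2), if_pos h2]
    · rw [if_neg (fun h => h.elim hxV h2), if_neg h2]
  ne := frb_ne hB hm hη
  ne' := fre_ne hm hη
  le := by
    intro x
    unfold frb fre
    by_cases h1 : x ∈ B
    · left
      rw [if_pos h1, if_pos (hB h1)]
      exact SdLe.refl (Sd_univ m 1)
    · by_cases h2 : x ∈ V
      · left
        rw [if_neg h1, if_pos (nbl h2), if_pos h2]
        exact SdLe_free hm (Or.inl rfl) (Sd_univ m 1)
      · by_cases h3 : x ∈ ebd V
        · left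
          rw [if_neg h1, if_pos (nbr h3), if_neg h2, if_pos h3]
          exact SdLe.refl (Sd_free m 1)
        · right
          have h4 : x ∉ nb V := fun h => h.elim h2 h3
          rw [if_neg h1, if_neg h4, if_neg h2, if_neg h3]
          exact ⟨h4, rfl, Set.subsingleton_singleton⟩

/-- Comparison of the free data at level `m = L - 1` with exact data `≥ L`. -/
theorem fre_le_exa (hV : V.Finite) (hm : Even m) (hne : (Cx V η).Nonempty)
    (hη : ∀ x ∈ ebd V, m + 1 ≤ η x) {E : Set Hg} (hE : IsUpperSet E) :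
    Pr (Cfg V (fre V η m)) E ≤ Pr (Cx V η) E := by
  have hodd : ∀ x, x ∉ nb V → Odd (η x) := by
    obtain ⟨h, hh⟩ := hne
    intro x hx
    rw [← Cx_out hh (fun h' => hx (Or.inl h'))]
    exact hh.1 x
  rw [Pr_eq_Ex (Cfg_finite (fre_dat hV)), Pr_eq_Ex (Cx_finite hV _)]
  refine Cfg_le (fre_dat hV) (dat_exa hV η) (fre_ne hm hodd) hne (fun x => ?_) _ (mono_ind hE)
  intro a ha b hb
  unfold fre at ha ⊢
  by_cases h1 : x ∈ V
  · rw [if_pos h1, exa_in h1]
    exact ⟨mem_univ _, mem_univ _⟩
  · rw [exa_out h1, mem_singleton_iff] at hb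
    rw [exa_out h1]
    by_cases h2 : x ∈ ebd V
    · rw [if_neg h1, if_pos h2] at ha ⊢
      have h3 := hη x h2
      have h4 : a ≤ b := by
        simp only [mem_insert_iff, mem_singleton_iff] at ha
        omega
      rw [min_eq_left h4, max_eq_right h4]
      exact ⟨ha, hb⟩
    · rw [if_neg h1, if_neg h2, mem_singleton_iff] at ha
      rw [if_neg h1, if_neg h2, ha, hb, min_self, max_self]
      exact ⟨mem_singleton _, mem_singleton _⟩

open Classical in
/-- Reflection about `m` on `nb V`. -/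
noncomputable def rfm (V : Set Pt) (m : ℤ) (h : Hg) : Hg := fun x =>
  if x ∈ nb V then 2 * m - h x else h x

theorem rfm_rfm (V : Set Pt) (m : ℤ) (h : Hg) : rfm V m (rfm V m h) = h := by
  funext x
  unfold rfm
  by_cases hx : x ∈ nb V
  · simp only [hx, if_true]; ring
  · simp only [hx, if_false]

theorem rfm_mem {h : Hg} (hh : h ∈ Cfg V (fre V η m)) : rfm V m h ∈ Cfg V (fre V η m) := by
  refine ⟨fun x => ?_, fun x => ?_, fun x hx y hxy => ?_⟩
  · unfold rfm
    split_ifs
    · exact (even_two_mul m).sub_odd (hh.1 x)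
    · exact hh.1 x
  · have h0 := hh.2.1 x
    unfold fre at h0 ⊢
    unfold rfm
    by_cases h1 : x ∈ V
    · rw [if_pos h1]; exact mem_univ _
    · by_cases h2 : x ∈ ebd V
      · rw [if_neg h1, if_pos h2] at h0 ⊢
        rw [if_pos (nbr h2)]
        simp only [mem_insert_iff, mem_singleton_iff] at h0 ⊢
        omega
      · rw [if_neg h1, if_neg h2] at h0 ⊢
        rw [if_neg (fun h => h.elim h1 h2)]
        exact h0
  · have h1 := Tr.mem_nb_of_left hx hxy
    have h2 := hh.2.2 x hx y hxy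
    unfold rfm
    rw [if_pos h1.1, if_pos h1.2]
    rw [abs_le] at h2 ⊢
    omega

theorem Pr_rfm (hV : V.Finite) (E : Set Hg) :
    Pr (Cfg V (fre V η m)) E = Pr (Cfg V (fre V η m)) {h | rfm V m h ∈ E} := by
  have hbij : BijOn (rfm V m) (Cfg V (fre V η m)) (Cfg V (fre V η m)) := by
    refine ⟨fun h hh => rfm_mem hh, fun a _ b _ hab => ?_, fun h hh =>
      ⟨rfm V m h, rfm_mem hh, rfm_rfm V m h⟩⟩
    rw [← rfm_rfm V m a, hab, rfm_rfm]
  rw [Pr_eq_Ex (Cfg_finite (fre_dat hV)), Ex_bij _ hbij, Pr_eq_Ex (Cfg_finite (fre_dat hV))]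
  refine Ex_congr fun h _ => ?_
  unfold ind
  simp only [mem_ofPred_eq]

/-- Shift of the level in a box. -/
theorem Pr_shift (hB : B.Finite) (hm : Even m) (E : Set Hg) :
    Pr (Cfg B (frd B m)) E = Pr (Cfg B (frd B 0)) {h | (fun x => h x + m) ∈ E} := by
  have hd : ∀ m : ℤ, Dat B (frd B m) := fun m => by
    refine ⟨hB, fun x hx => ?_, (nb_finite hB).subset fun x hx => ?_⟩
    · unfold frd
      rw [if_neg hx]
      split_ifs
      · exact Set.toFinite _
      · exact Set.finite_singleton _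
    · by_contra hxn
      apply hx
      unfold frd
      rw [if_neg (fun h => hxn (Or.inl h)), if_neg (fun h => hxn (Or.inr h))]
      exact Set.subsingleton_singleton
  have hmem : ∀ (m k : ℤ), Even k → ∀ h ∈ Cfg B (frd B m), (fun x => h x + k) ∈
      Cfg B (frd B (m + k)) := by
    intro m k hk h hh
    refine ⟨fun x => (hh.1 x).add_even hk, fun x => ?_, fun x hx y hxy => ?_⟩
    · have h0 := hh.2.1 x
      unfold frd at h0 ⊢
      by_cases h1 : x ∈ B
      · rw [if_pos h1]; exact mem_univ _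
      · by_cases h2 : x ∈ ebd B
        · rw [if_neg h1, if_pos h2] at h0 ⊢
          simp only [mem_insert_iff, mem_singleton_iff] at h0 ⊢
          omega
        · rw [if_neg h1, if_neg h2] at h0 ⊢
          simp only [mem_singleton_iff] at h0 ⊢
          omega
    · have := hh.2.2 x hx y hxy
      simpa using this
  have hbij : BijOn (fun (h : Hg) x => h x + m) (Cfg B (frd B 0)) (Cfg B (frd B m)) := by
    refine ⟨fun h hh => ?_, fun a _ b _ hab => ?_, fun h hh => ⟨fun x => h x + -m, ?_, ?_⟩⟩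
    · have := hmem 0 m hm h hh
      rwa [zero_add] at this
    · funext x
      have := congrFun hab x
      simpa using this
    · have := hmem m (-m) hm.neg h hh
      rwa [add_neg_cancel] at this
    · funext x
      simp
  rw [Pr_eq_Ex (Cfg_finite (hd m)), Ex_bij _ hbij, Pr_eq_Ex (Cfg_finite (hd 0))]
  refine Ex_congr fun h _ => ?_
  unfold ind
  simp only [mem_ofPred_eq]

end Data

theorem bx_finite (p : Pt) (r : ℤ) : (bx p r).Finite := by
  refine ((Set.finite_Icc (p.1 - r) (p.1 + r)).prod (Set.finite_Icc (p.2 - r) (p.2 + r))).subset ?_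
  rintro x ⟨h1, h2⟩
  rw [abs_le] at h1 h2
  simp only [Set.mem_prod, Set.mem_Icc]
  omega

/-- The core estimate, data `≥ m + 1`. -/
theorem one_core {V : Set Pt} {η : Hg} {m s r : ℤ} {p : Pt} {c : ℝ} (hV : V.Finite) (hm : Even m)
    (hB : bx p r ⊆ V) (hs : 0 ≤ s) (hsr : s + 1 ≤ r) (hne : (Cx V η).Nonempty)
    (hη : ∀ x ∈ ebd V, m + 1 ≤ η x)
    (hc : c ≤ Pr (Cfg (bx p r) (frd (bx p r) 0)) {h | NoCr {x | |h x| = 1} (bx p (s + 1))
      (bx p r)}) : c / 2 ≤ Pr (Cx V η) {h | NoCr (dn h (m + 1)) (bx p s) (bx p r)} := by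
  have hodd : ∀ x, x ∉ nb V → Odd (η x) := by
    obtain ⟨h, hh⟩ := hne
    intro x hx
    rw [← Cx_out hh (fun h' => hx (Or.inl h'))]
    exact hh.1 x
  have hXB : bx p (s + 1) ⊆ bx p r := fun x hx => ⟨hx.1.trans hsr, hx.2.trans hsr⟩
  have hXB' : bx p s ⊆ bx p r := fun x hx => ⟨hx.1.trans (by omega), hx.2.trans (by omega)⟩
  refine le_trans ?_ (fre_le_exa hV hm hne hη (upper_NoCr_dn _ _ _))
  set A : Set Hg := {a | NoCr {x | a x ≤ 1} (bx p (s + 1)) (bx p r)} with hA
  have hAu : IsUpperSet A := by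
    intro a b hab ha
    refine NoCr.mono (fun x (hx : b x ≤ 1) => ?_) Subset.rfl Subset.rfl ha
    exact (hab x).trans hx
  have h1 : c ≤ Pr (Cfg V (frb V (bx p r) η m)) {g | md m g ∈ A} := by
    have h2 := Ex_box (V := V) (I := frb V (bx p r) η m) hB (frb_dat hV hB) hm
      (fun x hx => by unfold frb; rw [if_pos hx]) (fun x hx hxB => by
        unfold frb; rw [if_neg hxB, if_pos hx]) (frb_ne hB hm hodd)
      (F := ind {g | md m g ∈ A}) (fun a b hab => by
        have : a ∈ {g : Hg | md m g ∈ A} ↔ b ∈ {g : Hg | md m g ∈ A} := by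
          constructor
          · intro h
            refine NoCr_local hXB (fun x hx hx' => ?_) h
            have hx'' : |b x - m| ≤ 1 := hx'
            rw [← hab x hx] at hx''
            exact hx''
          · intro h
            refine NoCr_local hXB (fun x hx hx' => ?_) h
            have hx'' : |a x - m| ≤ 1 := hx'
            rw [hab x hx] at hx''
            exact hx''
        unfold ind
        by_cases h0 : a ∈ {g : Hg | md m g ∈ A}
        · rw [if_pos h0, if_pos (this.1 h0)]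
        · rw [if_neg h0, if_neg (fun h' => h0 (this.2 h'))])
    have hfd : (Cfg (bx p r) (frd (bx p r) m)).Finite := by
      refine Cfg_finite ⟨bx_finite p r, fun x hx => ?_, (nb_finite (bx_finite p r)).subset
        fun x hx => ?_⟩
      · unfold frd
        rw [if_neg hx]
        split_ifs
        · exact Set.toFinite _
        · exact Set.finite_singleton _
      · by_contra hxn
        apply hx
        unfold frd
        rw [if_neg (fun h => hxn (Or.inl h)), if_neg (fun h => hxn (Or.inr h))]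
        exact Set.subsingleton_singleton
    rw [Pr_eq_Ex (Cfg_finite (frb_dat hV hB)), h2, ← Pr_eq_Ex hfd, Pr_shift (bx_finite p r) hm]
    refine hc.trans (Pr_mono fun h hh hn => ?_)
    refine NoCr.mono (fun x hx => ?_) Subset.rfl Subset.rfl hn
    have h3 : |h x + m - m| ≤ 1 := hx
    rw [add_sub_cancel_right] at h3
    have h4 := hh.1 x
    show |h x| = 1
    obtain ⟨i, hi⟩ := h4
    rw [abs_le] at h3
    rcases (by omega : h x = 1 ∨ h x = -1) with h5 | h5 <;> rw [h5] <;> rfl
  have h2 := h1.trans (md_Pr_mono0 (cmp_frb hV hB hm hodd) hAu)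
  have h3 : Pr (Cfg V (fre V η m)) {g | md m g ∈ A} ≤
      Pr (Cfg V (fre V η m)) ({h | NoCr (dn h (m + 1)) (bx p s) (bx p r)} ∪
        {h | NoCr (up h (m - 1)) (bx p s) (bx p r)}) := by
    refine Pr_mono fun g hg hgA => ?_
    refine sign_det hg.1 hm hg.2.2 (fun x hx => ?_) hB hs (by omega) hgA
    have h4 := hg.2.1 x
    unfold fre at h4
    rw [if_neg hx.1, if_pos hx] at h4
    simp only [mem_insert_iff, mem_singleton_iff] at h4
    rw [abs_le]
    omega
  have h4 : Pr (Cfg V (fre V η m)) {h | NoCr (up h (m - 1)) (bx p s) (bx p r)} ≤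
      Pr (Cfg V (fre V η m)) {h | NoCr (dn h (m + 1)) (bx p s) (bx p r)} := by
    rw [Pr_rfm hV]
    refine Pr_mono fun h _ hn => ?_
    refine NoCr_local hXB' (fun x hx hx' => ?_) hn
    have hxV : x ∈ nb V := by
      rcases hx with hx | ⟨-, y, hy, hyx⟩
      · exact Or.inl (hB hx)
      · exact (Tr.mem_nb_of_left (hB hy) hyx).2
    have h5 : h x ≤ m + 1 := hx'
    show m - 1 ≤ rfm V m h x
    unfold rfm
    rw [if_pos hxV]
    omega
  have h5 := Pr_union_le (Cfg V (fre V η m)) {h | NoCr (dn h (m + 1)) (bx p s) (bx p r)}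
    {h | NoCr (up h (m - 1)) (bx p s) (bx p r)}
  linarith

theorem s_one : S_one := by
  rintro ⟨R, s₀, hR, hs₀, h⟩
  refine ⟨2 * R, s₀, by omega, hs₀, ?_⟩
  have key : ∀ s, s₀ ≤ s → ∀ (p : Pt) (V : Set Pt) (η : Hg) (L : ℤ), V.Finite →
      bx p (2 * R * s) ⊆ V → (Cx V η).Nonempty → Odd L → (∀ x ∈ ebd V, L ≤ η x) →
      1 / 4 ≤ Pr (Cx V η) {h | NoCr (dn h L) (bx p s) (bx p (2 * R * s))} := by
    intro s hs p V η L hV hB hne hL hη
    have hs1 : 1 ≤ s := hs₀.trans hs
    have hr : R * (s + 1) ≤ 2 * R * s := by nlinarith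
    have hBr : bx p (R * (s + 1)) ⊆ bx p (2 * R * s) := fun x hx =>
      ⟨hx.1.trans hr, hx.2.trans hr⟩
    obtain ⟨j, hj⟩ := hL
    have h1 := one_core (V := V) (η := η) (m := 2 * j) (s := s) (r := R * (s + 1)) (p := p) hV
      (even_two_mul j) (hBr.trans hB) (by omega) (by nlinarith) hne
      (fun x hx => by have := hη x hx; omega) (h (s + 1) (by omega) p)
    rw [← hj] at h1
    have e : (1 / 2 : ℝ) / 2 = 1 / 4 := by norm_num
    rw [e] at h1
    exact h1.trans (Pr_mono fun g _ hg => NoCr.mono Subset.rfl Subset.rfl hBr hg)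
  intro s hs p V η L hV hB hne hL
  refine ⟨fun hη => ?_, key s hs p V η L hV hB hne hL⟩
  rw [flip_NoCr hV]
  exact key s hs p V (ng η) (-L) hV hB (Cx_ng_ne hne) hL.neg (ng_bd hη)

end Vale.Agent.P153.R2.F2
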