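import Vale.Agent.P153.R2.F2.Net
import Vale.Agent.P153.R2.PLAN.Cob

/-!
# P153-R2, block F2 (helper640): the sign lemma (deterministic part of F2.2)
-/

namespace Vale.Agent.P153.R2.F2

open Set Relation
open Vale.Agent.P153
open Vale.Agent.P153.Topo (Conn)
open Vale.Agent.P153.R2

theorem adj_add {x y : Pt} (p : Pt) (h : Adj x y) : Adj (x + p) (y + p) := by
  rw [Topo.adj_iff] at h ⊢
  simp only [Prod.fst_add, Prod.snd_add]
  omega

theorem conn_add {S S' : Set Pt} (p : Pt) (hS : ∀ z ∈ S, z + p ∈ S') {x y : Pt}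
    (h : Conn S x y) : Conn S' (x + p) (y + p) := by
  refine h.ind (fun y => Conn S' (x + p) (y + p)) (Conn.refl (hS _ h.left_mem)) ?_
  intro u v _ huv hv ih
  exact ih.tail (adj_add p huv) (hS v hv)

/-- The complement of a box is connected. -/
theorem cc_bx (p : Pt) (r : ℤ) {x y : Pt} (hx : x ∉ bx p r) (hy : y ∉ bx p r) :
    Conn (bx p r)ᶜ x y := by
  set S : Set Pt := {z | z + p ∉ bx p r} with hS
  have h1 : ∀ z : Pt, r + 1 ≤ |z.1| ∨ r + 1 ≤ |z.2| → z ∈ S := by
    rintro z hz ⟨h2, h3⟩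
    simp only [Prod.fst_add, Prod.snd_add, add_sub_cancel_right] at h2 h3
    omega
  have h2 : ∀ w : Pt, w ∉ bx p r → r + 1 ≤ |(w - p).1| ∨ r + 1 ≤ |(w - p).2| := by
    intro w hw
    by_contra hcon
    push Not at hcon
    apply hw
    simp only [Prod.fst_sub, Prod.snd_sub] at hcon
    constructor <;> omega
  have h3 : ∀ w : Pt, w ∉ bx p r → Conn (bx p r)ᶜ w ((|r| + 1, 0) + p) := by
    intro w hw
    have := conn_add (S' := (bx p r)ᶜ) p (fun z hz => hz)
      (Topo.conn_compl_box h1 (h2 w hw) (t := |r| + 1) (by have := le_abs_self r; omega))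
    rwa [sub_add_cancel] at this
  exact (h3 x hx).trans (h3 y hy).symm

/-- The connected set reached from the box. -/
def KX (X S : Set Pt) : Set Pt := Cl (X ∪ S) X

/-- Heights of modulus at least `3` on a connected set which is surrounded by `V` have one sign. -/
theorem const_sign {g : Hg} {V T : Set Pt} {m : ℤ} (hodd : ∀ x, Odd (g x)) (hm : Even m)
    (hlip : ∀ x ∈ V, ∀ y, Adj x y → |g x - g y| ≤ 2) (hT : T ⊆ V)
    (h3 : ∀ x ∈ T, 1 < |g x - m|) {x y : Pt} (hxy : Conn T x y) (hx : m < g x) : m + 3 ≤ g y := by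
  have key : ∀ z ∈ T, m < g z → m + 3 ≤ g z := by
    intro z hz hz'
    have h1 := h3 z hz
    rw [lt_abs] at h1
    obtain ⟨i, hi⟩ := hodd z
    obtain ⟨j, hj⟩ := hm
    omega
  refine hxy.ind (fun y => m + 3 ≤ g y) (key x hxy.left_mem hx) ?_
  intro u v _ huv hv hu
  have h1 := hlip v (hT hv) u (Topo.adj_symm huv)
  rw [abs_le] at h1
  exact key v hv (by omega)

/-- **Sign lemma.** If no path of `{|g - m| ≤ 1}` crosses from `bx p (s + 1)` to the complement of
`bx p r`, then no path of `{g ≤ m + 1}`, or no path of `{g ≥ m - 1}`, crosses from `bx p s`. -/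
theorem sign_det {g : Hg} {V : Set Pt} {m : ℤ} {p : Pt} {s r : ℤ} (hodd : ∀ x, Odd (g x))
    (hm : Even m) (hlip : ∀ x ∈ V, ∀ y, Adj x y → |g x - g y| ≤ 2)
    (hbd : ∀ x ∈ ebd V, |g x - m| ≤ 1) (hB : bx p r ⊆ V) (hs : 0 ≤ s) (hsr : s ≤ r)
    (h : NoCr {x | |g x - m| ≤ 1} (bx p (s + 1)) (bx p r)) :
    NoCr (dn g (m + 1)) (bx p s) (bx p r) ∨ NoCr (up g (m - 1)) (bx p s) (bx p r) := by
  set S : Set Pt := {x | |g x - m| ≤ 1} with hS
  set X : Set Pt := bx p s with hX
  set K : Set Pt := KX X S with hK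
  have hXK : X ⊆ K := fun x hx => ⟨x, hx, Conn.refl (Or.inl hx)⟩
  have hKstep : ∀ x y, x ∈ K → Adj x y → y ∈ X ∪ S → y ∈ K := by
    rintro x y ⟨z, hz, hzx⟩ hxy hy
    exact ⟨z, hz, hzx.tail hxy hy⟩
  have hXr : X ⊆ bx p r := fun x hx => ⟨hx.1.trans hsr, hx.2.trans hsr⟩
  -- `K` stays in the box
  have hKB : K ⊆ bx p r := by
    have key : ∀ y ∈ K, y ∈ X ∨ ∃ v ∈ bx p (s + 1), Conn S v y := by
      rintro y ⟨z, hz, hzy⟩
      refine hzy.ind (fun y => y ∈ X ∨ ∃ v ∈ bx p (s + 1), Conn S v y) (Or.inl hz) ?_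
      intro u v _ huv hv hu
      rcases hv with hv | hv
      · exact Or.inl hv
      · right
        rcases hu with hu | ⟨w, hw, hwu⟩
        · refine ⟨v, ?_, Conn.refl hv⟩
          obtain ⟨h3, h4⟩ := adj_abs huv
          obtain ⟨h1, h2⟩ := hu
          rw [abs_le] at h1 h2 h3 h4
          exact ⟨abs_le.2 (by omega), abs_le.2 (by omega)⟩
        · exact ⟨w, hw, hwu.tail huv hv⟩
    intro y hy
    by_contra hyB
    rcases key y hy with h1 | ⟨v, hv, hvy⟩
    · exact hyB (hXr h1)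
    · exact h v hv y hyB hvy
  have hKconn : ∀ x ∈ K, ∀ y ∈ K, Conn K x y := by
    have h1 : ∀ y ∈ K, Conn K p y := by
      rintro y ⟨z, hz, hzy⟩
      have hpz : Conn K p z := by
        have hbox : Conn X p z := by
          have hpX : ∀ i j : ℤ, |i - p.1| ≤ s → |j - p.2| ≤ s → ((i, j) : Pt) ∈ X :=
            fun i j h1 h2 => ⟨h1, h2⟩
          have hz1 := abs_le.1 hz.1
          have hz2 := abs_le.1 hz.2
          have e1 : Conn X (p.1, p.2) (z.1, p.2) := Topo.conn_row fun i h1 h2 => hpX _ _ (by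
            rw [abs_le]
            rcases min_le_iff.1 h1 with h3 | h3 <;> rcases le_max_iff.1 h2 with h4 | h4 <;> omega)
            (by simpa using hs)
          have e2 : Conn X (z.1, p.2) (z.1, z.2) := Topo.conn_col fun j h1 h2 => hpX _ _ hz.1 (by
            rw [abs_le]
            rcases min_le_iff.1 h1 with h3 | h3 <;> rcases le_max_iff.1 h2 with h4 | h4 <;> omega)
          exact e1.trans e2
        exact hbox.mono hXK
      refine hpz.trans ?_
      refine hzy.ind (fun y => Conn K z y) (Conn.refl (hXK hz)) ?_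
      intro u v hu huv hv ih
      exact ih.tail huv (hKstep u v ⟨z, hz, hu⟩ huv hv)
    intro x hx y hy
    exact (h1 x hx).symm.trans (h1 y hy)
  -- the unbounded component of the complement
  set y₀ : Pt := (p.1 + r + 1, p.2) with hy₀
  have hy₀B : y₀ ∉ bx p r := by
    rintro ⟨h1, -⟩
    simp only [hy₀] at h1
    rw [abs_le] at h1
    omega
  set W : Set Pt := {y | Conn Kᶜ y₀ y} with hW
  have hBW : ∀ y, y ∉ bx p r → y ∈ W := fun y hy =>
    (cc_bx p r hy₀B hy).mono (Set.compl_subset_compl.2 hKB)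
  have hKW : Disjoint K W := by
    rw [Set.disjoint_left]
    intro y hy hyW
    exact (Conn.right_mem hyW) hy
  have hcl : ∀ x ∈ W, ∀ y, Adj x y → y ∉ K → y ∈ W := fun x hx y hxy hy => Conn.tail hx hxy hy
  have hWconn : ∀ x ∈ W, ∀ y ∈ W, Conn W x y := by
    have h1 : ∀ y ∈ W, Conn W y₀ y := by
      intro y hy
      refine Conn.ind (fun y => Conn W y₀ y) (Conn.refl (hBW _ hy₀B)) ?_ hy
      intro u v hu huv hv ih
      exact ih.tail huv (Conn.tail hu huv hv)
    intro x hx y hy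
    exact (h1 x hx).symm.trans (h1 y hy)
  set T : Set Pt := PLAN.outer K W with hT
  have hT3 : ∀ x ∈ T, 1 < |g x - m| := by
    rintro x ⟨hxW, k, hk, hkx⟩
    by_contra hcon
    exact Set.disjoint_left.1 hKW (hKstep k x hk hkx (Or.inr (not_lt.1 hcon))) hxW
  have hTV : T ⊆ V := by
    rintro x ⟨hxW, k, hk, hkx⟩
    by_contra hxV
    have h1 : x ∈ ebd V := ⟨hxV, k, hB (hKB hk), hkx⟩
    have h2 := hT3 x ⟨hxW, k, hk, hkx⟩
    exact absurd (hbd x h1) (not_le.2 h2)
  have hconn := fun {v w : Pt} (hv : v ∈ T) (hw : w ∈ T) =>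
    PLAN.outer_connected hKW hKconn hWconn hcl hv hw
  -- every path from the box to the outside meets `T`
  have hmeet : ∀ (C : Set Pt) (x y : Pt), x ∈ X → y ∉ bx p r → Conn C x y → ∃ z ∈ T, z ∈ C := by
    intro C x y hx hy hc
    obtain ⟨u, v, h1, h2, h3, h4, h5, -⟩ := Conn.exit (C := Wᶜ) hc
      (fun h' => Set.disjoint_left.1 hKW (hXK hx) h') (fun h' => h' (hBW y hy))
    have hvW : v ∈ W := not_not.1 h3
    have huK : u ∈ K := by
      by_contra huK
      exact h2 (hcl v hvW u (Topo.adj_symm h4) huK)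
    exact ⟨v, ⟨hvW, u, huK, h4⟩, h5.left_mem⟩
  by_cases hsgn : ∃ x ∈ T, m < g x
  · left
    obtain ⟨x₀, hx₀, hgx⟩ := hsgn
    intro x hx y hy hc
    obtain ⟨z, hzT, hzC⟩ := hmeet _ x y hx hy hc
    have h1 := const_sign hodd hm hlip hTV hT3 (hconn hx₀ hzT) hgx
    have h2 : g z ≤ m + 1 := hzC
    omega
  · right
    push Not at hsgn
    intro x hx y hy hc
    obtain ⟨z, hzT, hzC⟩ := hmeet _ x y hx hy hc
    have h1 := hsgn z hzT
    have h2 : m - 1 ≤ g z := hzC
    have h3 := hT3 z hzT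
    rw [lt_abs] at h3
    omega

end Vale.Agent.P153.R2.F2
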