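import Vale.Agent.P153.R2.Base.Basic

/-!
# P153-R2, block F2 (helper640): one-sided non-crossings and R0 in finite volume, statements

* `thk A r`: the sup-neighbourhood of radius `r` of `A` (any set of vertices).
* `NoCr S B B'`: no path of vertices of `S` from `B` to the complement of `B'`.
* `Cx V η = Cfg V (exa V η)`: exact data `η` off `V`; only `η` on `ebd V` matters.
* `RV V U`: the vertices reached from the complement of `V` by paths of `Vᶜ ∪ U`.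
* `Bdd V η a b`: `a ≤ η ≤ b` on `ebd V`.

`OneS R s₀ c` (F2.2, from the box statement `S_lc`) is the only input of the rest: with data `≤ L`
there is no `{h ≥ L}`-path from `bx p s` to the complement of `bx p (R s)`, with probability `≥ c`,
uniformly in `V ⊇ bx p (R s)`, `L` and the data; and the mirror statement.
-/

namespace Vale.Agent.P153.R2.F2

open Set Relation
open Vale.Agent.P153
open Vale.Agent.P153.Topo (Conn)
open Vale.Agent.P153.R2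

/-- The sup-neighbourhood of radius `r`. -/
def thk (A : Set Pt) (r : ℤ) : Set Pt := {x | ∃ a ∈ A, |x.1 - a.1| ≤ r ∧ |x.2 - a.2| ≤ r}

/-- No path of vertices of `S` from `B` to the complement of `B'`. -/
def NoCr (S B B' : Set Pt) : Prop := ∀ x ∈ B, ∀ y, y ∉ B' → ¬ Conn S x y

/-- Exact data `η` off `V`. -/
abbrev Cx (V : Set Pt) (η : Hg) : Set Hg := Cfg V (exa V η)

/-- The vertices reached from the complement of `V` by paths of `Vᶜ ∪ U`. -/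
def RV (V U : Set Pt) : Set Pt := Cl (Vᶜ ∪ U) Vᶜ

/-- Bounds for the data on the outer boundary. -/
def Bdd (V : Set Pt) (η : Hg) (a b : ℤ) : Prop := ∀ x ∈ ebd V, a ≤ η x ∧ η x ≤ b

/-- The input (block F2.1, helper859). -/
def S_lc : Prop := ∃ R s₀ : ℤ, 1 ≤ R ∧ 1 ≤ s₀ ∧ ∀ s, s₀ ≤ s → ∀ p : Pt,
  1 / 2 ≤ Pr (Cfg (bx p (R * s)) (frd (bx p (R * s)) 0))
    {h | NoCr {x | |h x| = 1} (bx p s) (bx p (R * s))}

/-- One-sided non-crossings of a box annulus of ratio `R`, with probability at least `c`. -/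
def OneS (R s₀ : ℤ) (c : ℝ) : Prop :=
  ∀ s, s₀ ≤ s → ∀ (p : Pt) (V : Set Pt) (η : Hg) (L : ℤ), V.Finite → bx p (R * s) ⊆ V →
    (Cx V η).Nonempty → Odd L →
    ((∀ x ∈ ebd V, η x ≤ L) → c ≤ Pr (Cx V η) {h | NoCr (up h L) (bx p s) (bx p (R * s))}) ∧
    ((∀ x ∈ ebd V, L ≤ η x) → c ≤ Pr (Cx V η) {h | NoCr (dn h L) (bx p s) (bx p (R * s))})

/-- (F2.2) -/
def S_one : Prop := S_lc → ∃ R s₀ : ℤ, 1 ≤ R ∧ 1 ≤ s₀ ∧ OneS R s₀ (1 / 4)

/-- (F2.3) Net: the layer between `thk A a` and `thk A b`, inside `V`. -/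
def S_net : Prop := ∀ (R s₀ : ℤ) (c : ℝ), 1 ≤ R → 1 ≤ s₀ → 0 < c → OneS R s₀ c →
  ∀ ρ : ℤ, ∃ c' : ℝ, 0 < c' ∧ ∀ s, s₀ ≤ s → ∀ (q : Pt) (A V : Set Pt) (η : Hg) (L a b : ℤ),
    A ⊆ bx q (ρ * s) → 0 ≤ a → a + (2 * R + 5) * s ≤ b → b ≤ ρ * s → V.Finite →
    thk A b \ thk A a ⊆ V → (Cx V η).Nonempty → Odd L →
    ((∀ x ∈ ebd V, η x ≤ L) → c' ≤ Pr (Cx V η) {h | NoCr (up h L) (thk A a) (thk A b)}) ∧
    ((∀ x ∈ ebd V, L ≤ η x) → c' ≤ Pr (Cx V η) {h | NoCr (dn h L) (thk A a) (thk A b)})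

/-- (F2.4) Level iteration: the data are `≤ L + 2 n`; the `{h ≥ L}`-clusters of the complement of `V`
do not reach the middle layer; in particular there is no `{h ≥ L}`-crossing of any layer inside the
middle one, up to the clusters inside (second form). The vertices of the layers belong to `V`. -/
def S_lev : Prop := ∀ (R s₀ : ℤ) (c : ℝ), 1 ≤ R → 1 ≤ s₀ → 0 < c → OneS R s₀ c →
  ∀ (ρ : ℤ) (n : ℕ), ∃ c' : ℝ, 0 < c' ∧ ∀ s, s₀ ≤ s → ∀ (q : Pt) (A V : Set Pt) (η : Hg)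
    (L a b t : ℤ), A ⊆ bx q (ρ * s) → 0 ≤ a → (2 * R + 7) * s ≤ t → a + (n + 1) * t ≤ b - (n + 1) * t →
    b ≤ ρ * s → V.Finite → thk A b \ thk A a ⊆ V → (Cx V η).Nonempty → Odd L →
    ((∀ x ∈ ebd V, η x ≤ L + 2 * n) → c' ≤ Pr (Cx V η)
      {h | Disjoint (RV V (up h L)) (thk A (b - (n + 1) * t) \ thk A (a + (n + 1) * t))}) ∧
    ((∀ x ∈ ebd V, L - 2 * n ≤ η x) → c' ≤ Pr (Cx V η)
      {h | Disjoint (RV V (dn h L)) (thk A (b - (n + 1) * t) \ thk A (a + (n + 1) * t))})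

/-- (F2.4') Non-crossing form. -/
def S_ncr : Prop := ∀ (R s₀ : ℤ) (c : ℝ), 1 ≤ R → 1 ≤ s₀ → 0 < c → OneS R s₀ c →
  ∀ (ρ : ℤ) (n : ℕ), ∃ c' : ℝ, 0 < c' ∧ ∀ s, s₀ ≤ s → ∀ (q : Pt) (A V : Set Pt) (η : Hg)
    (L a b : ℤ), A ⊆ bx q (ρ * s) → 0 ≤ a → a + (2 * n + 3) * ((2 * R + 7) * s) ≤ b →
    b ≤ ρ * s → V.Finite → thk A b \ thk A a ⊆ V → (Cx V η).Nonempty → Odd L →
    ((∀ x ∈ ebd V, η x ≤ L + 2 * n) →
      c' ≤ Pr (Cx V η) {h | NoCr (up h L) (thk A a) (thk A b)}) ∧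
    ((∀ x ∈ ebd V, L - 2 * n ≤ η x) →
      c' ≤ Pr (Cx V η) {h | NoCr (dn h L) (thk A a) (thk A b)})

/-- (F2.5) R0: data bounded by `2 n + 1`; no open path (level `0`) from the complement of `V` to the
middle layer. -/
def S_r0 : Prop := ∀ (R s₀ : ℤ) (c : ℝ), 1 ≤ R → 1 ≤ s₀ → 0 < c → OneS R s₀ c →
  ∀ (ρ : ℤ) (n : ℕ), ∃ (c' : ℝ) (k : ℕ), 0 < c' ∧ ∀ s, s₀ ≤ s → ∀ (q : Pt) (A V : Set Pt) (η : Hg)
    (a b t : ℤ), A ⊆ bx q (ρ * s) → 0 ≤ a → (2 * R + 7) * s ≤ t → a + k * t ≤ b - k * t →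
    b ≤ ρ * s → V.Finite → thk A b \ thk A a ⊆ V → (Cx V η).Nonempty →
    Bdd V η (-(2 * n + 1)) (2 * n + 1) → c' ≤ Pr (Cx V η)
      {h | Disjoint (CluL 0 Vᶜ h) (thk A (b - k * t) \ thk A (a + k * t))}

/-- (F2.5') R0 with shields: ARBITRARY data; the event `Sh` = the `{|h| ≥ 2 n + 3}`-clusters of the
complement of `V` do not reach the layer `(a, b)`. Given `Sh` (with positive conditional probability)
no open path from the complement of `V` reaches the middle layer. -/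
def S_r0sh : Prop := ∀ (R s₀ : ℤ) (c : ℝ), 1 ≤ R → 1 ≤ s₀ → 0 < c → OneS R s₀ c →
  ∀ (ρ : ℤ) (n : ℕ), ∃ (c' : ℝ) (k : ℕ), 0 < c' ∧ ∀ s, s₀ ≤ s → ∀ (q : Pt) (A V : Set Pt) (η : Hg)
    (a b t : ℤ), A ⊆ bx q (ρ * s) → 0 ≤ a → (2 * R + 7) * s ≤ t →
    a + k * t ≤ b - k * t → b ≤ ρ * s → V.Finite → thk A b \ thk A a ⊆ V → (Cx V η).Nonempty →
    c' * Pr (Cx V η) {h | Disjoint (RV V {x | 2 * n + 3 ≤ |h x|}) (thk A b \ thk A a)} ≤
      Pr (Cx V η) {h | Disjoint (RV V {x | 2 * n + 3 ≤ |h x|}) (thk A b \ thk A a) ∧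
        Disjoint (CluL 0 Vᶜ h) (thk A (b - k * t) \ thk A (a + k * t))}

end Vale.Agent.P153.R2.F2
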